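import Vale.Agent.P280.N2.Defs

/-! P280, stage 2: existence of the chambers of one component. -/

open DirectSum Vale.Agent.P280.T Vale.Agent.P280.H127 Vale.Agent.P280.N

namespace Vale.Agent.P280.H701

open Vale.Agent.P280.N.H989 Vale.Agent.P280.N2

variable {r : ℕ} {R : Type} [CommRing R] [IsDomain R] [Algebra ℂ R]
  {𝒜 : ℕ × (Fin r → ℤ) → Submodule ℂ R} [GradedAlgebra 𝒜]
  {N : ℤ} {n : ℕ} {f : Fin (n + 1) → Fin r → ℤ}
  {β : Fin (n + 1) → Fin (n + 1) → ((Fin r → ℤ) →+ ℤ)} {E F : Fin (n + 1) → Fin (n + 1) → VF R}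

/-- A functional with prescribed values on the letters. -/
theorem exists_psi (hA : AC 𝒜 N n f β E F) (v : Fin (n + 1) → ℤ) (hv : ∑ i, v i = 0) :
    ∃ ψ : (Fin r → ℤ) →+ ℤ, (∀ k, ψ (f k) = N * v k) ∧
      ∀ μ, (∀ i j, i ≠ j → β i j μ = 0) → ψ μ = 0 := by
  refine ⟨∑ i, if i = Fin.last n then 0 else v i • β i (Fin.last n), ?_, ?_⟩
  · intro k
    rw [AddMonoidHom.finsetSum_apply]
    have h1 : ∀ i, (if i = Fin.last n then (0 : (Fin r → ℤ) →+ ℤ)
        else v i • β i (Fin.last n)) (f k) =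
        (if k = i then N * v i else 0) - (if k = Fin.last n then N * v i else 0) := by
      intro i
      by_cases hi : i = Fin.last n
      · rw [if_pos hi, AddMonoidHom.zero_apply, hi]
        by_cases hk : k = Fin.last n
        · rw [if_pos hk, sub_self]
        · rw [if_neg hk, sub_self]
      · rw [if_neg hi, AddMonoidHom.zsmul_apply, hA.be i _ k hi, smul_eq_mul]
        split_ifs <;> ring
    rw [Finset.sum_congr rfl fun i _ => h1 i, Finset.sum_sub_distrib, Finset.sum_ite_eq,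
      if_pos (Finset.mem_univ k)]
    have h2 : (∑ i, if k = Fin.last n then N * v i else 0) = 0 := by
      by_cases hk : k = Fin.last n
      · rw [Finset.sum_congr rfl fun i _ => if_pos hk, ← Finset.mul_sum, hv, mul_zero]
      · rw [Finset.sum_congr rfl fun i _ => if_neg hk, Finset.sum_const_zero]
    rw [h2, sub_zero]
  · intro μ hμ
    rw [AddMonoidHom.finsetSum_apply]
    refine Finset.sum_eq_zero fun i _ => ?_
    by_cases hi : i = Fin.last n
    · rw [if_pos hi, AddMonoidHom.zero_apply]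
    · rw [if_neg hi, AddMonoidHom.zsmul_apply, hμ i _ hi, smul_zero]

/-- A generic functional which refines a given one. -/
theorem exists_refine (H : Hyp 𝒜) (ψ : (Fin r → ℤ) →+ ℤ) :
    ∃ c : (Fin r → ℤ) →+ ℤ, (∀ μ, Wt 𝒜 μ → c μ ≠ 0) ∧ (∀ μ, Wt 𝒜 μ → 0 < ψ μ → 0 < c μ) ∧
      ∀ μ, Wt 𝒜 μ → ψ μ < 0 → c μ < 0 := by
  obtain ⟨g, hg⟩ := H587.exists_generic ((D01.wt_finite H).union (Set.finite_singleton 0))
  have hg0 : ∀ μ, Wt 𝒜 μ → g μ ≠ 0 := by
    intro μ hμ h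
    refine c03_wt_ne_zero H hμ (hg (Or.inl hμ) (Or.inr rfl) ?_)
    rw [h, map_zero]
  obtain ⟨K, hK0, hK⟩ := c03_bound H g
  have e : ∀ μ, ((K + 1) • ψ + g) μ = (K + 1) * ψ μ + g μ := fun μ => by
    rw [AddMonoidHom.add_apply, AddMonoidHom.zsmul_apply, smul_eq_mul]
  have hpos : ∀ μ, Wt 𝒜 μ → 0 < ψ μ → 0 < ((K + 1) • ψ + g) μ := by
    intro μ hμ h
    rw [e]
    have h1 := (abs_le.1 (hK μ hμ)).1
    nlinarith
  have hneg : ∀ μ, Wt 𝒜 μ → ψ μ < 0 → ((K + 1) • ψ + g) μ < 0 := by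
    intro μ hμ h
    rw [e]
    have h1 := (abs_le.1 (hK μ hμ)).2
    nlinarith
  refine ⟨(K + 1) • ψ + g, ?_, hpos, hneg⟩
  intro μ hμ
  rcases lt_trichotomy (ψ μ) 0 with h | h | h
  · exact (hneg μ hμ h).ne
  · rw [e, h, mul_zero, zero_add]
    exact hg0 μ hμ
  · exact (hpos μ hμ h).ne'

/-- The chamber with exactly the first `k` letters positive, `1 ≤ k ≤ n`, in decreasing order. -/
theorem exists_chk (H : Hyp 𝒜) (hA : AC 𝒜 N n f β E F) (k : ℕ) (hk : 1 ≤ k) (hk' : k ≤ n) :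
    ∃ c : (Fin r → ℤ) →+ ℤ, (∀ μ, Wt 𝒜 μ → c μ ≠ 0) ∧ (∀ i j, i < j → c (f j) < c (f i)) ∧
      (∀ j : Fin (n + 1), (j : ℕ) < k → 0 < c (f j)) ∧
      ∀ j : Fin (n + 1), k ≤ (j : ℕ) → c (f j) < 0 := by
  have hN := hA.N0
  let p : Fin (n + 1) → ℤ := fun j => if (j : ℕ) < k then (k : ℤ) - j else 0
  let q : Fin (n + 1) → ℤ := fun j => if (j : ℕ) < k then 0 else (j : ℤ) - k + 1
  have hp0 : ∀ j, 0 ≤ p j := by
    intro j
    show 0 ≤ (if (j : ℕ) < k then (k : ℤ) - j else 0)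
    split_ifs with h
    · have : ((j : ℕ) : ℤ) < k := by exact_mod_cast h
      omega
    · exact le_rfl
  have hq0 : ∀ j, 0 ≤ q j := by
    intro j
    show 0 ≤ (if (j : ℕ) < k then 0 else (j : ℤ) - k + 1)
    split_ifs with h
    · exact le_rfl
    · have : (k : ℤ) ≤ ((j : ℕ) : ℤ) := by exact_mod_cast not_lt.1 h
      omega
  have hP : 0 < ∑ j, p j := by
    refine Finset.sum_pos' (fun j _ => hp0 j) ⟨0, Finset.mem_univ _, ?_⟩
    show 0 < (if ((0 : Fin (n + 1)) : ℕ) < k then (k : ℤ) - ((0 : Fin (n + 1)) : ℕ) else 0)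
    rw [if_pos (show ((0 : Fin (n + 1)) : ℕ) < k from by rw [Fin.val_zero]; omega)]
    simp only [Fin.val_zero, Nat.cast_zero, sub_zero]
    exact_mod_cast hk
  have hQ : 0 < ∑ j, q j := by
    refine Finset.sum_pos' (fun j _ => hq0 j) ⟨Fin.last n, Finset.mem_univ _, ?_⟩
    show 0 < (if ((Fin.last n : Fin (n + 1)) : ℕ) < k then 0 else
      (((Fin.last n : Fin (n + 1)) : ℕ) : ℤ) - k + 1)
    rw [if_neg (by simpa using hk')]
    have : (k : ℤ) ≤ n := by exact_mod_cast hk'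
    simp only [Fin.val_last]
    omega
  obtain ⟨P, hPdef⟩ : ∃ P, P = ∑ j, p j := ⟨_, rfl⟩
  obtain ⟨Q, hQdef⟩ : ∃ Q, Q = ∑ j, q j := ⟨_, rfl⟩
  rw [← hPdef] at hP
  rw [← hQdef] at hQ
  obtain ⟨ψ, hψ, -⟩ := exists_psi hA (fun j => Q * p j - P * q j) (by
    rw [Finset.sum_sub_distrib, ← Finset.mul_sum, ← Finset.mul_sum, ← hPdef, ← hQdef]
    ring)
  obtain ⟨c, hc, hc1, hc2⟩ := exists_refine H ψ
  have hpv : ∀ j : Fin (n + 1), (j : ℕ) < k → p j = (k : ℤ) - j ∧ q j = 0 := fun j hj =>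
    ⟨if_pos hj, if_pos hj⟩
  have hqv : ∀ j : Fin (n + 1), k ≤ (j : ℕ) → p j = 0 ∧ q j = (j : ℤ) - k + 1 := fun j hj =>
    ⟨if_neg (not_lt.2 hj), if_neg (not_lt.2 hj)⟩
  have hppos : ∀ j : Fin (n + 1), (j : ℕ) < k → 0 < Q * p j - P * q j := by
    intro j hj
    obtain ⟨h1, h2⟩ := hpv j hj
    rw [h1, h2, mul_zero, sub_zero]
    have : ((j : ℕ) : ℤ) < k := by exact_mod_cast hj
    exact mul_pos hQ (by omega)
  have hqneg : ∀ j : Fin (n + 1), k ≤ (j : ℕ) → Q * p j - P * q j < 0 := by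
    intro j hj
    obtain ⟨h1, h2⟩ := hqv j hj
    rw [h1, h2, mul_zero, zero_sub]
    have : (k : ℤ) ≤ ((j : ℕ) : ℤ) := by exact_mod_cast hj
    have h3 : 0 < P * ((j : ℤ) - k + 1) := mul_pos hP (by omega)
    omega
  refine ⟨c, hc, ?_, ?_, ?_⟩
  · intro i j hij
    have hij' : ((i : ℕ) : ℤ) < ((j : ℕ) : ℤ) := by exact_mod_cast hij
    have h1 : 0 < ψ (f i - f j) := by
      rw [map_sub, hψ, hψ, ← mul_sub]
      refine mul_pos hN ?_
      rcases Nat.lt_or_ge (j : ℕ) k with hj | hj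
      · have hi : (i : ℕ) < k := lt_trans hij hj
        obtain ⟨a1, a2⟩ := hpv i hi
        obtain ⟨b1, b2⟩ := hpv j hj
        rw [a1, a2, b1, b2]
        have : Q * ((k : ℤ) - i) - P * 0 - (Q * ((k : ℤ) - j) - P * 0) = Q * ((j : ℤ) - i) := by
          ring
        rw [this]
        exact mul_pos hQ (by omega)
      · rcases Nat.lt_or_ge (i : ℕ) k with hi | hi
        · have h1 := hppos i hi
          have h2 := hqneg j hj
          omega
        · obtain ⟨a1, a2⟩ := hqv i hi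
          obtain ⟨b1, b2⟩ := hqv j hj
          rw [a1, a2, b1, b2]
          have : Q * 0 - P * ((i : ℤ) - k + 1) - (Q * 0 - P * ((j : ℤ) - k + 1)) =
              P * ((j : ℤ) - i) := by ring
          rw [this]
          exact mul_pos hP (by omega)
    have h2 := hc1 _ (hA.vx i j hij.ne).1 h1
    rw [map_sub] at h2
    omega
  · intro j hj
    refine hc1 _ (hA.wt j) ?_
    rw [hψ]
    exact mul_pos hN (hppos j hj)
  · intro j hj
    refine hc2 _ (hA.wt j) ?_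
    rw [hψ]
    exact mul_neg_of_pos_of_neg hN (hqneg j hj)

/-- The chamber of `Ch2` exists. -/
theorem exists_ch2 (H : Hyp 𝒜) (hA : AC 𝒜 N n f β E F) : ∃ c, Ch2 𝒜 n f c := by
  have hn := hA.n2
  obtain ⟨c, h1, h2, h3, h4⟩ := exists_chk H hA 2 (by norm_num) hn
  refine ⟨c, h1, h2, ?_, h4⟩
  apply h3
  show 1 % (n + 1) < 2
  rw [Nat.mod_eq_of_lt (by omega)]
  norm_num

end Vale.Agent.P280.H701
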