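import Vale.Agent.P280.N.C00

/-! P280, stage 2: the one-field lemma (LN). If `w` is global, `ad w` is nilpotent on the rational
field `v`, the only possible pole of `v` at `y` is along `z = 0`, and `w z` is not divisible by `z`
at `y`, then `v` is regular at `y`. -/

open DirectSum Vale.Agent.P280.T Vale.Agent.P280.H127

namespace Vale.Agent.P280.H701

open Vale.Agent.P280.N

variable {r : ℕ} {R : Type} [CommRing R] [IsDomain R] [Algebra ℂ R]
  {𝒜 : ℕ × (Fin r → ℤ) → Submodule ℂ R} [GradedAlgebra 𝒜]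

/-- A coordinate is a prime element of the local ring. -/
theorem prime_num (hX : IsTorusManifold 𝒜) {q : R →ₐ[ℂ] ℂ} (hq : ¬ IsVertex 𝒜 q) {z : R}
    (hz : q z = 0) {t : R →ₗ[ℂ] ℂ} (ht : IsTangent q t) (htz : t z ≠ 0) {a a' s b : R}
    (hs : q s ≠ 0) (h : s * (a * a') = b * z) :
    (∃ s' b' : R, q s' ≠ 0 ∧ s' * a = b' * z) ∨ ∃ s' b' : R, q s' ≠ 0 ∧ s' * a' = b' * z := by
  have : Algebra.FiniteType ℂ R := hX.finiteType
  have : IsNoetherianRing R := Algebra.FiniteType.isNoetherianRing ℂ R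
  have hr : IsRegularLocalRing (Localization.AtPrime (mx q)) := hX.smooth q hq (mx q) rfl
  have hmap : Ideal.map (algebraMap R (Localization.AtPrime (mx q))) (mx q) =
      IsLocalRing.maximalIdeal (Localization.AtPrime (mx q)) :=
    Localization.AtPrime.map_eq_maximalIdeal
  have hx0 : algebraMap R (Localization.AtPrime (mx q)) z ∈
      IsLocalRing.maximalIdeal (Localization.AtPrime (mx q)) := by
    rw [← hmap]
    exact Ideal.mem_map_of_mem _ (mem_mx.2 hz)
  have hx2 : algebraMap R (Localization.AtPrime (mx q)) z ∉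
      IsLocalRing.maximalIdeal (Localization.AtPrime (mx q)) ^ 2 := by
    rw [← hmap, ← Ideal.map_pow]
    intro h
    obtain ⟨m, hm, h1⟩ := (IsLocalization.algebraMap_mem_map_algebraMap_iff (mx q).primeCompl
      (Localization.AtPrime (mx q)) _ z).1 h
    have h2 := (show Tan q t from ht).sq h1
    rw [tan_mul (show Tan q t from ht) m z hz] at h2
    have h3 : q m ≠ 0 := fun h => hm (mem_mx.2 h)
    exact (mul_ne_zero h3 htz) h2
  have hprime := Vale.Agent.P271.H879.Reg.prime_of_notMem_sq hx0 hx2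
  have key : ∀ x : R, algebraMap R (Localization.AtPrime (mx q)) z ∣
      algebraMap R (Localization.AtPrime (mx q)) x ↔ ∃ s' b' : R, q s' ≠ 0 ∧ s' * x = b' * z := by
    intro x
    have h1 : Ideal.span {algebraMap R (Localization.AtPrime (mx q)) z} =
        Ideal.map (algebraMap R (Localization.AtPrime (mx q))) (Ideal.span {z}) := by
      rw [Ideal.map_span, Set.image_singleton]
    rw [← Ideal.mem_span_singleton, h1,
      IsLocalization.algebraMap_mem_map_algebraMap_iff (mx q).primeCompl]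
    constructor
    · rintro ⟨m, hm, h⟩
      obtain ⟨y, hy⟩ := Ideal.mem_span_singleton'.1 h
      exact ⟨m, y, fun h => hm (mem_mx.2 h), hy.symm⟩
    · rintro ⟨t, y, ht, h⟩
      exact ⟨t, fun h => ht (mem_mx.1 h), Ideal.mem_span_singleton'.2 ⟨y, h.symm⟩⟩
  have h1 := (key (a * a')).2 ⟨s, b, hs, h⟩
  rw [map_mul] at h1
  rcases hprime.dvd_or_dvd h1 with h2 | h2
  · exact Or.inl ((key a).1 h2)
  · exact Or.inr ((key a').1 h2)

/-- `x` is divisible by `z` at `q`. -/
def Dv (q : R →ₐ[ℂ] ℂ) (z : R) (x : FractionRing R) : Prop := ∃ s, Rg q s ∧ x = iK z * s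

omit [GradedAlgebra 𝒜] in
theorem dv_iff {q : R →ₐ[ℂ] ℂ} {z : R} {a s : R} {x : FractionRing R} (hs : q s ≠ 0)
    (hx : iK s * x = iK a) : Dv q z x ↔ ∃ s' b' : R, q s' ≠ 0 ∧ s' * a = b' * z := by
  have inj : Function.Injective (algebraMap R (FractionRing R)) := IsFractionRing.injective R _
  have hs0 : iK s ≠ 0 := fun h => hs (by
    have : s = 0 := inj (h.trans (map_zero _).symm)
    rw [this, map_zero])
  constructor
  · rintro ⟨t, ⟨c, u, hu, hc⟩, rfl⟩
    refine ⟨u, s * c, hu, inj ?_⟩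
    rw [map_mul, map_mul, map_mul]
    have e1 : algebraMap R (FractionRing R) a = iK s * (iK z * t) := hx.symm
    have e2 : algebraMap R (FractionRing R) c = iK u * t := hc.symm
    rw [e1, e2]
    ring
  · rintro ⟨s', b', hs', h⟩
    have hs'0 : iK s' ≠ 0 := fun h => hs' (by
      have : s' = 0 := inj (h.trans (map_zero _).symm)
      rw [this, map_zero])
    refine ⟨(iK s' * iK s)⁻¹ * iK b', ⟨b', s' * s, ?_, ?_⟩, ?_⟩
    · rw [map_mul]
      exact mul_ne_zero hs' hs
    · show algebraMap R (FractionRing R) (s' * s) * _ = _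
      rw [map_mul, ← mul_assoc, mul_inv_cancel₀ (mul_ne_zero hs'0 hs0), one_mul]
    · have e1 : iK s' * iK a = iK b' * iK z := by
        rw [← map_mul, ← map_mul, h]
      have e2 : x = (iK s)⁻¹ * iK a := by
        rw [← hx, ← mul_assoc, inv_mul_cancel₀ hs0, one_mul]
      have e3 : iK a = (iK s')⁻¹ * (iK b' * iK z) := by
        rw [← e1, ← mul_assoc, inv_mul_cancel₀ hs'0, one_mul]
      rw [e2, e3, mul_inv]
      ring

theorem dv_or (hX : IsTorusManifold 𝒜) {q : R →ₐ[ℂ] ℂ} (hq : ¬ IsVertex 𝒜 q) {z : R}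
    (hz : q z = 0) {t : R →ₗ[ℂ] ℂ} (ht : IsTangent q t) (htz : t z ≠ 0) {x x' : FractionRing R}
    (hx : Rg q x) (hx' : Rg q x') (h : Dv q z (x * x')) : Dv q z x ∨ Dv q z x' := by
  obtain ⟨a, s, hs, ha⟩ := hx
  obtain ⟨a', s', hs', ha'⟩ := hx'
  have hss : q (s * s') ≠ 0 := by
    rw [map_mul]
    exact mul_ne_zero hs hs'
  have haa : iK (s * s') * (x * x') = iK (a * a') := by
    have e1 : iK (s * s') = iK s * iK s' := map_mul _ _ _
    have e2 : iK (a * a') = iK a * iK a' := map_mul _ _ _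
    rw [e1, e2, ← ha, ← ha']
    ring
  obtain ⟨u, b, hu, hb⟩ := (dv_iff hss haa).1 h
  rcases prime_num hX hq hz ht htz hu hb with h1 | h1
  · exact Or.inl ((dv_iff hs ha).2 h1)
  · exact Or.inr ((dv_iff hs' ha').2 h1)

/-- The pole order goes up by one. -/
theorem ln_step (hX : IsTorusManifold 𝒜) {q : R →ₐ[ℂ] ℂ} (hq : ¬ IsVertex 𝒜 q) {z : R}
    (hz : q z = 0) {t : R →ₗ[ℂ] ℂ} (ht : IsTangent q t) (htz : t z ≠ 0) {w v : VF R}
    (hw : RgV q w) (hwz : ¬ Dv q z (w (iK z))) {k : ℕ} (hk : RgV q ((iK z) ^ (k + 1) • v))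
    (hk' : ¬ RgV q ((iK z) ^ k • v)) :
    RgV q ((iK z) ^ (k + 2) • ⁅w, v⁆) ∧ ¬ RgV q ((iK z) ^ (k + 1) • ⁅w, v⁆) := by
  have inj : Function.Injective (algebraMap R (FractionRing R)) := IsFractionRing.injective R _
  have hz0 : z ≠ 0 := by
    rintro rfl
    exact htz (map_zero t)
  have hz1 : iK z ≠ 0 := fun h => hz0 (inj (h.trans (map_zero _).symm))
  -- `z ^ (k+2) [w, v] h = z w(v₀ h) - (k+1) w(z) v₀ h - z v₀ (w h)`
  set v0 : VF R := (iK z) ^ (k + 1) • v with hv0
  have e0 : ∀ x, v0 x = (iK z) ^ (k + 1) * v x := fun x => by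
    rw [hv0, Derivation.smul_apply, smul_eq_mul]
  have key : ∀ x : FractionRing R, (iK z) ^ (k + 2) * ⁅w, v⁆ x =
      iK z * (w (v0 x) - v0 (w x)) - ((k + 1 : ℕ) : FractionRing R) * w (iK z) * v0 x := by
    intro x
    rw [Derivation.commutator_apply, e0, e0, Derivation.leibniz, Derivation.leibniz_pow]
    simp only [smul_eq_mul, nsmul_eq_mul]
    have : k + 1 - 1 = k := rfl
    rw [this]
    ring
  have hreg : ∀ x : R, Rg q (w (v0 (iK x)) - v0 (w (iK x))) := by
    intro x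
    exact (hw.rg (hk x)).sub (hk.rg (hw x))
  constructor
  · intro x
    rw [Derivation.smul_apply, smul_eq_mul, key]
    refine ((Rg.iK z).mul (hreg x)).sub (((?_ : Rg q _).mul (hw z)).mul (hk x))
    have := (Rg.one (q := q) (R := R)).smul ((k + 1 : ℕ) : ℂ)
    rwa [Algebra.smul_def, mul_one, map_natCast] at this
  · intro hbad
    apply hk'
    intro x
    have h1 : Dv q z (((k + 1 : ℕ) : FractionRing R) * w (iK z) * v0 (iK x)) := by
      refine ⟨(w (v0 (iK x)) - v0 (w (iK x))) - (iK z) ^ (k + 1) * ⁅w, v⁆ (iK x), ?_, ?_⟩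
      · have := hbad x
        rw [Derivation.smul_apply, smul_eq_mul] at this
        exact (hreg x).sub this
      · have := key (iK x)
        rw [mul_sub, ← mul_assoc, ← pow_succ', this]
        ring
    have hc : ((k + 1 : ℕ) : FractionRing R) ≠ 0 := by
      have : ((k + 1 : ℕ) : FractionRing R) = algebraMap ℂ (FractionRing R) ((k + 1 : ℕ) : ℂ) := by
        rw [map_natCast]
      rw [this]
      intro h
      have h2 := (algebraMap ℂ (FractionRing R)).injective (h.trans (map_zero _).symm)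
      exact (Nat.cast_ne_zero.2 (Nat.succ_ne_zero k)) h2
    have h2 : Dv q z (w (iK z) * v0 (iK x)) := by
      obtain ⟨s, hs, he⟩ := h1
      refine ⟨((k + 1 : ℕ) : FractionRing R)⁻¹ * s, ?_, ?_⟩
      · have := hs.smul (((k + 1 : ℕ) : ℂ)⁻¹)
        rwa [Algebra.smul_def, map_inv₀, map_natCast] at this
      · rw [mul_left_comm, ← he, mul_assoc, ← mul_assoc (_⁻¹), inv_mul_cancel₀ hc, one_mul]
    rcases dv_or hX hq hz ht htz (hw z) (hk x) h2 with h3 | h3
    · exact absurd h3 hwz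
    · obtain ⟨s, hs, he⟩ := h3
      have e1 : iK z * ((iK z) ^ k * v (iK x)) = iK z * s := by
        rw [← he, e0, pow_succ']
        ring
      have e2 := mul_left_cancel₀ hz1 e1
      rw [Derivation.smul_apply, smul_eq_mul, e2]
      exact hs

/-- **(LN)**. -/
theorem ln (hX : IsTorusManifold 𝒜) {q : R →ₐ[ℂ] ℂ} (hq : ¬ IsVertex 𝒜 q) {z : R}
    (hz : q z = 0) {t : R →ₗ[ℂ] ℂ} (ht : IsTangent q t) (htz : t z ≠ 0) {w v : VF R}
    (hw : RgV q w) (hwz : ¬ Dv q z (w (iK z))) (hnil : ∃ n : ℕ, (fun X : VF R => ⁅w, X⁆)^[n] v = 0)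
    (hk : ∃ k : ℕ, RgV q ((iK z) ^ k • v)) : RgV q v := by
  by_contra hno
  obtain ⟨n, hn⟩ := hnil
  have main : ∀ n : ℕ, ∃ k : ℕ, RgV q ((iK z) ^ (k + 1) • (fun X : VF R => ⁅w, X⁆)^[n] v) ∧
      ¬ RgV q ((iK z) ^ k • (fun X : VF R => ⁅w, X⁆)^[n] v) := by
    intro n
    induction n with
    | zero =>
      classical
      have h0 : Nat.find hk ≠ 0 := by
        intro h
        have := Nat.find_spec hk
        rw [h, pow_zero, one_smul] at this
        exact hno this
      obtain ⟨j, hj⟩ := Nat.exists_eq_succ_of_ne_zero h0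
      refine ⟨j, ?_, ?_⟩
      · have := Nat.find_spec hk
        rwa [hj] at this
      · exact Nat.find_min hk (by omega)
    | succ n ih =>
      obtain ⟨k, h1, h2⟩ := ih
      refine ⟨k + 1, ?_⟩
      rw [Function.iterate_succ_apply']
      exact ln_step hX hq hz ht htz hw hwz h1 h2
  obtain ⟨k, -, h⟩ := main n
  apply h
  rw [hn, smul_zero]
  exact RgV.zero

/-- **(LN)** at a fixed point. -/
theorem ln_crd (H : Hyp 𝒜) (y : FP 𝒜) {χ : Fin r → ℤ} {dz : ℕ} {z : R} (hz : Crd y χ dz z)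
    {w v : VF R} (hw : Glob w) (hwz : ∀ s, Rg y.q s → w (iK z) ≠ iK z * s)
    (hnil : ∃ n : ℕ, (fun X : VF R => ⁅w, X⁆)^[n] v = 0)
    (hk : ∃ k : ℕ, RgV y.q ((iK z) ^ k • v)) : RgV y.q v := by
  obtain ⟨t, ht, -, htz⟩ := hz.2.2
  exact ln H.hX y.nv hz.2.1 ht htz hw.rgV (fun ⟨s, hs, h⟩ => hwz s hs h) hnil hk

end Vale.Agent.P280.H701
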