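import Mathlib

/-! P280, plan N, M3: `[e, f]` is semisimple (linear algebra). -/

namespace Vale.Agent.P280.H701

open Polynomial

variable {V : Type*} [AddCommGroup V] [Module ℂ V]

/-- `f` lowers the eigenvalues of `hs`, so it is nilpotent. -/
theorem nilp_of_lower [FiniteDimensional ℂ V] (f hs : Module.End ℂ V)
    (hhf : hs * f - f * hs = -((2 : ℂ) • f)) : ∃ N : ℕ, f ^ N = 0 := by
  by_contra hcon
  push Not at hcon
  set T : Module.End ℂ (Module.End ℂ V) := LinearMap.mulLeft ℂ hs - LinearMap.mulRight ℂ hs with hT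
  have hpow : ∀ k : ℕ, hs * f ^ k - f ^ k * hs = (-2 * (k : ℂ)) • f ^ k := by
    intro k
    induction k with
    | zero => simp
    | succ k ih =>
      have h1 : hs * f ^ (k + 1) - f ^ (k + 1) * hs =
          (hs * f ^ k - f ^ k * hs) * f + f ^ k * (hs * f - f * hs) := by
        rw [pow_succ]
        noncomm_ring
      rw [h1, ih, hhf, pow_succ]
      push_cast
      rw [smul_mul_assoc, mul_neg, mul_smul_comm]
      module
  have hev : ∀ k : ℕ, T.HasEigenvalue (-2 * (k : ℂ)) := by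
    intro k
    refine Module.End.hasEigenvalue_of_hasEigenvector (x := f ^ k) ⟨?_, hcon k⟩
    rw [Module.End.mem_eigenspace_iff, ← hpow k]
    simp [hT]
  have hinf : Set.Infinite {μ | T.HasEigenvalue μ} := by
    refine Set.infinite_of_injective_forall_mem (f := fun k : ℕ => -2 * (k : ℂ)) ?_ hev
    intro a b hab
    have : (a : ℂ) = b := by
      have h2 : (-2 : ℂ) ≠ 0 := by norm_num
      exact mul_left_cancel₀ h2 hab
    exact_mod_cast this
  exact hinf (Module.End.finite_hasEigenvalue T)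

/-- `e f^(k+1) x` for `e x = 0`. -/
theorem e_f_pow (e f h : Module.End ℂ V) (hef : e * f - f * e = h)
    (hhf : h * f - f * h = -((2 : ℂ) • f)) {x : V} (hx : e x = 0) (k : ℕ) :
    e ((f ^ (k + 1)) x) = ((k : ℂ) + 1) • (f ^ k) (h x - (k : ℂ) • x) := by
  have hE : ∀ y, e (f y) = f (e y) + h y := by
    intro y
    rw [← hef]
    simp
  have hF : ∀ y, h (f y) = f (h y) - (2 : ℂ) • f y := by
    intro y
    have h1 := congrArg (fun g : Module.End ℂ V => g y) hhf
    simp only [LinearMap.sub_apply, Module.End.mul_apply, LinearMap.neg_apply,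
      LinearMap.smul_apply] at h1
    rw [sub_eq_iff_eq_add] at h1
    rw [h1]
    abel
  have hFk : ∀ (k : ℕ) (y : V), h ((f ^ k) y) = (f ^ k) (h y) - (2 * (k : ℂ)) • (f ^ k) y := by
    intro k
    induction k with
    | zero => intro y; simp
    | succ k ih =>
      intro y
      rw [pow_succ', Module.End.mul_apply, hF, ih, Module.End.mul_apply]
      simp only [map_sub, map_smul]
      push_cast
      module
  induction k with
  | zero => simp [hE, hx]
  | succ k ih =>
    rw [pow_succ', Module.End.mul_apply, hE, ih, hFk]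
    simp only [map_sub, map_smul, pow_succ', Module.End.mul_apply]
    push_cast
    module

/-- The polynomial. -/
noncomputable def Pk (k : ℕ) : ℂ[X] := ∏ i ∈ Finset.range k, (X - C (i : ℂ))

theorem e_pow_f_pow (e f h : Module.End ℂ V) (hef : e * f - f * e = h)
    (hhf : h * f - f * h = -((2 : ℂ) • f)) (hhe : h * e - e * h = (2 : ℂ) • e) (k : ℕ) :
    ∀ {x : V}, e x = 0 → (e ^ k) ((f ^ k) x) = (k.factorial : ℂ) • (aeval h (Pk k)) x := by
  have hker : ∀ {x : V}, e x = 0 → e (h x) = 0 := by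
    intro x hx
    have h1 := congrArg (fun g : Module.End ℂ V => g x) hhe
    simp only [LinearMap.sub_apply, Module.End.mul_apply, LinearMap.smul_apply, hx, map_zero,
      smul_zero, zero_sub, neg_eq_zero] at h1
    exact h1
  induction k with
  | zero => intro x _; simp [Pk]
  | succ k ih =>
    intro x hx
    rw [pow_succ e, Module.End.mul_apply, e_f_pow e f h hef hhf hx k, map_smul,
      ih (x := h x - (k : ℂ) • x) (by rw [map_sub, map_smul, hx, hker hx]; simp)]
    have h1 : Pk (k + 1) = Pk k * (X - C (k : ℂ)) := by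
      unfold Pk
      rw [Finset.prod_range_succ]
    rw [h1, map_mul, Module.End.mul_apply]
    have h2 : (aeval h (X - C (k : ℂ))) x = h x - (k : ℂ) • x := by
      rw [map_sub, aeval_X, aeval_C, LinearMap.sub_apply, Algebra.algebraMap_eq_smul_one,
        LinearMap.smul_apply, Module.End.one_apply]
    rw [h2, Nat.factorial_succ, smul_smul]
    push_cast
    rfl

/-- On the kernel of `e` the operator `h` is a root of a polynomial with simple roots. -/
theorem aeval_ker (e f h : Module.End ℂ V) (hef : e * f - f * e = h)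
    (hhf : h * f - f * h = -((2 : ℂ) • f)) (hhe : h * e - e * h = (2 : ℂ) • e) {N : ℕ}
    (hN : f ^ N = 0) {x : V} (hx : e x = 0) : (aeval h (Pk N)) x = 0 := by
  have h1 := e_pow_f_pow e f h hef hhf hhe N hx
  rw [hN, LinearMap.zero_apply, map_zero] at h1
  have h2 : (N.factorial : ℂ) ≠ 0 := by exact_mod_cast N.factorial_ne_zero
  exact (smul_eq_zero.1 h1.symm).resolve_left h2

theorem Pk_root {N : ℕ} {μ : ℂ} (h : (Pk N).eval μ = 0) : ∃ i : ℕ, i < N ∧ μ = i := by
  unfold Pk at h
  rw [eval_prod, Finset.prod_eq_zero_iff] at h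
  obtain ⟨i, hi, h1⟩ := h
  refine ⟨i, Finset.mem_range.1 hi, ?_⟩
  simpa [sub_eq_zero] using h1

/-- No Jordan block. -/
theorem no_jordan (h : Module.End ℂ V) {N i : ℕ} {v w : V} (hi : i < N)
    (hv : (aeval h (Pk N)) v = 0) (h1 : h v = (i : ℂ) • v + w) (h2 : h w = (i : ℂ) • w) :
    w = 0 := by
  have hP : Pk N = (∏ j ∈ (Finset.range N).erase i, (X - C (j : ℂ))) * (X - C (i : ℂ)) := by
    unfold Pk
    rw [Finset.prod_erase_mul _ _ (Finset.mem_range.2 hi)]
  rw [hP, map_mul, Module.End.mul_apply] at hv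
  have h3 : (aeval h (X - C (i : ℂ))) v = w := by
    rw [map_sub, aeval_X, aeval_C, LinearMap.sub_apply, Algebra.algebraMap_eq_smul_one,
      LinearMap.smul_apply, Module.End.one_apply, h1]
    abel
  rw [h3, Module.End.aeval_apply_of_mem_apply_eq_smul h2] at hv
  refine (smul_eq_zero.1 hv).resolve_left ?_
  rw [eval_prod]
  refine Finset.prod_ne_zero_iff.2 ?_
  intro j hj
  have hji : j ≠ i := Finset.ne_of_mem_erase hj
  simp only [eval_sub, eval_X, eval_C]
  rw [sub_ne_zero]
  exact_mod_cast hji.symm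

/-- A vector of a stable submodule which is not killed by `Z` may be taken in a generalised
eigenspace. -/
theorem exists_gen [FiniteDimensional ℂ V] (g Z : Module.End ℂ V) (k : ℕ∞)
    (hg : ⨆ μ : ℂ, g.genEigenspace μ k = ⊤) (K : Submodule ℂ V) (hK : ∀ x ∈ K, g x ∈ K)
    {v : V} (hv : v ∈ K) (hZ : Z v ≠ 0) : ∃ μ : ℂ, ∃ v' ∈ K, v' ∈ g.genEigenspace μ k ∧ Z v' ≠ 0 := by
  by_contra hcon
  push Not at hcon
  have h1 := Submodule.inf_iSup_genEigenspace (p := K) (f := g) hK k
  rw [hg, inf_top_eq] at h1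
  have h2 : K ≤ LinearMap.ker Z := by
    rw [h1]
    refine iSup_le fun μ => ?_
    rintro x ⟨hx1, hx2⟩
    exact hcon μ x hx1 hx2
  exact hZ (h2 hv)

/-- The last non-zero iterate of a nilpotent operator. -/
theorem exists_last_pow (e : Module.End ℂ V) (he : IsNilpotent e) {u : V} (hu : u ≠ 0) :
    ∃ k : ℕ, (e ^ k) u ≠ 0 ∧ e ((e ^ k) u) = 0 := by
  classical
  obtain ⟨n, hn⟩ := he
  have hex : ∃ k, (e ^ k) u = 0 := ⟨n, by rw [hn]; rfl⟩
  have h0 : Nat.find hex ≠ 0 := by
    intro h1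
    have h2 := Nat.find_spec hex
    rw [h1] at h2
    exact hu (by simpa using h2)
  obtain ⟨k, hk⟩ := Nat.exists_eq_succ_of_ne_zero h0
  refine ⟨k, Nat.find_min hex (by omega), ?_⟩
  have h2 := Nat.find_spec hex
  rw [hk, Nat.succ_eq_add_one, pow_succ', Module.End.mul_apply] at h2
  exact h2

/-- `e, f, hs + Z` an sl2-triple on a finite-dimensional space, `hs` diagonalisable, `Z`
nilpotent and central: then `Z = 0`. -/
theorem sl2_central [FiniteDimensional ℂ V]
    (e f hs Z : Module.End ℂ V) (he : IsNilpotent e) (hZ : IsNilpotent Z)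
    (hef : e * f - f * e = hs + Z) (hhe : hs * e - e * hs = (2 : ℂ) • e)
    (hhf : hs * f - f * hs = -((2 : ℂ) • f)) (hZe : Z * e = e * Z) (hZf : Z * f = f * Z)
    (hZh : Z * hs = hs * Z) (hdiag : ⨆ μ : ℂ, Module.End.eigenspace hs μ = ⊤) : Z = 0 := by
  by_contra hZ0
  obtain ⟨N, hN⟩ := nilp_of_lower f hs hhf
  set h : Module.End ℂ V := hs + Z with hh
  have hhe' : h * e - e * h = (2 : ℂ) • e := by
    rw [← hhe, hh, add_mul, mul_add, hZe]
    abel
  have hhf' : h * f - f * h = -((2 : ℂ) • f) := by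
    rw [← hhf, hh, add_mul, mul_add, hZf]
    abel
  have cZe : ∀ x, Z (e x) = e (Z x) := fun x => by
    have := congrArg (fun g : Module.End ℂ V => g x) hZe
    simpa using this
  have cZh : ∀ x, Z (hs x) = hs (Z x) := fun x => by
    have := congrArg (fun g : Module.End ℂ V => g x) hZh
    simpa using this
  have chse : ∀ x, hs (e x) = e (hs x) + (2 : ℂ) • e x := fun x => by
    have := congrArg (fun g : Module.End ℂ V => g x) hhe
    simp only [LinearMap.sub_apply, Module.End.mul_apply, LinearMap.smul_apply] at this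
    rw [← this]
    abel
  -- the Casimir operator
  set c : Module.End ℂ V := (4 : ℂ) • (f * e) + h * h + (2 : ℂ) • h + 1 with hc
  have hcv : ∀ x, c x = (4 : ℂ) • f (e x) + h (h x) + (2 : ℂ) • h x + x := fun x => by
    simp [hc]
  have hce : Commute c e := by
    have hE : ∀ y, e (f y) = f (e y) + h y := by
      intro y
      have := congrArg (fun g : Module.End ℂ V => g y) hef
      simp only [LinearMap.sub_apply, Module.End.mul_apply] at this
      rw [← this]
      abel
    have hH : ∀ y, h (e y) = e (h y) + (2 : ℂ) • e y := by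
      intro y
      have := congrArg (fun g : Module.End ℂ V => g y) hhe'
      simp only [LinearMap.sub_apply, Module.End.mul_apply, LinearMap.smul_apply] at this
      rw [← this]
      abel
    refine LinearMap.ext fun x => ?_
    rw [Module.End.mul_apply, Module.End.mul_apply, hcv, hcv]
    simp only [map_add, map_smul, hE, hH]
    module
  have hZcomm : Commute Z h := by
    show Z * h = h * Z
    rw [hh, mul_add, add_mul, hZh]
  have hcZ : Commute c Z := by
    have h1 : Commute (f * e) Z := by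
      show f * e * Z = Z * (f * e)
      rw [mul_assoc, ← hZe, ← mul_assoc, ← hZf, mul_assoc]
    have h2 : Commute h Z := hZcomm.symm
    exact (((h1.smul_left 4).add_left (h2.mul_left h2)).add_left (h2.smul_left 2)).add_left
      (Commute.one_left Z)
  have hchs : Commute c hs := by
    have h1 : Commute (f * e) hs := by
      show f * e * hs = hs * (f * e)
      have h3 : e * hs = hs * e - (2 : ℂ) • e := by rw [← hhe]; abel
      have h4 : hs * f = f * hs - (2 : ℂ) • f := by
        rw [sub_eq_add_neg (f * hs), ← hhf]; abel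
      rw [mul_assoc, h3, ← mul_assoc hs, h4, mul_sub, sub_mul, mul_smul_comm, smul_mul_assoc,
        mul_assoc]
    have h5 : Commute h hs := by
      show h * hs = hs * h
      rw [hh, mul_add, add_mul, hZh]
    exact (((h1.smul_left 4).add_left (h5.mul_left h5)).add_left (h5.smul_left 2)).add_left
      (Commute.one_left hs)
  -- a common vector
  have hK : ∃ K : Submodule ℂ V, (∀ x, x ∈ K ↔ (∃ y, Z y = x) ∧ e x = 0 ∧ Z x = 0) :=
    ⟨LinearMap.range Z ⊓ LinearMap.ker e ⊓ LinearMap.ker Z, fun x => by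
      simp [and_assoc]⟩
  obtain ⟨K, hK⟩ := hK
  have hKne : ∃ x ∈ K, x ≠ 0 := by
    obtain ⟨v, hv⟩ : ∃ v, Z v ≠ 0 := by
      by_contra hcon
      push Not at hcon
      exact hZ0 (LinearMap.ext hcon)
    obtain ⟨s, hs1, hs2⟩ := exists_last_pow Z hZ hv
    obtain ⟨k, hk1, hk2⟩ := exists_last_pow e he hs1
    have hcomm : ∀ (k : ℕ) (x : V), Z ((e ^ k) x) = (e ^ k) (Z x) := by
      intro k x
      have h1 : Commute Z (e ^ k) := (show Commute Z e from hZe).pow_right k
      have := congrArg (fun g : Module.End ℂ V => g x) h1.eq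
      simpa using this
    refine ⟨(e ^ k) ((Z ^ s) (Z v)), (hK _).2 ⟨⟨(e ^ k) ((Z ^ s) v), ?_⟩, hk2, ?_⟩, hk1⟩
    · rw [hcomm, ← Module.End.mul_apply Z, ← pow_succ', pow_succ, Module.End.mul_apply]
    · rw [hcomm, hs2, map_zero]
  have hKs : ∀ x ∈ K, hs x ∈ K := by
    intro x hx
    obtain ⟨⟨y, hy⟩, h1, h2⟩ := (hK x).1 hx
    refine (hK _).2 ⟨⟨hs y, by rw [cZh, hy]⟩, ?_, by rw [cZh, h2, map_zero]⟩
    have h3 := chse x
    rw [h1, map_zero, smul_zero, add_zero] at h3
    exact h3.symm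
  obtain ⟨w, hwK, hw0, n, hwn⟩ : ∃ w ∈ K, w ≠ 0 ∧ ∃ n : ℂ, hs w = n • w := by
    obtain ⟨x, hx, hx0⟩ := hKne
    have : Nontrivial K := ⟨⟨⟨x, hx⟩, 0, fun h1 => hx0 (by simpa using congrArg Subtype.val h1)⟩⟩
    obtain ⟨n, hn⟩ := Module.End.exists_eigenvalue (LinearMap.restrict hs hKs)
    obtain ⟨w, hw⟩ := hn.exists_hasEigenvector
    refine ⟨w.1, w.2, fun h1 => hw.2 (Subtype.ext h1), n, ?_⟩
    have h1 := hw.apply_eq_smul
    exact congrArg Subtype.val h1
  obtain ⟨⟨v₀, hv₀⟩, hew, hZw⟩ := (hK w).1 hwK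
  have hhw : h w = n • w := by rw [hh, LinearMap.add_apply, hwn, hZw, add_zero]
  -- eigenvectors of `h` in the kernel of `e`
  have hnat : ∀ {x : V} {m : ℂ}, e x = 0 → x ≠ 0 → h x = m • x → ∃ i : ℕ, i < N ∧ m = i := by
    intro x m hx hx0 hm
    have h1 := aeval_ker e f h hef hhf' hhe' hN hx
    rw [Module.End.aeval_apply_of_mem_apply_eq_smul hm] at h1
    exact Pk_root ((smul_eq_zero.1 h1).resolve_right hx0)
  have hcas : ∀ {x : V} {m : ℂ}, e x = 0 → h x = m • x → c x = ((m + 1) * (m + 1)) • x := by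
    intro x m hx hm
    rw [hcv, hx, map_zero, smul_zero, zero_add, hm, map_smul, hm]
    module
  have hcw := hcas hew hhw
  -- the line over `w`
  set K' : Submodule ℂ V := Submodule.comap Z (Submodule.span ℂ {w}) with hK'
  have hmemK' : ∀ x, x ∈ K' ↔ ∃ t : ℂ, t • w = Z x := by
    intro x
    rw [hK', Submodule.mem_comap, Submodule.mem_span_singleton]
  obtain ⟨n', v₁, hv₁, hv₁n, hv₁Z⟩ := exists_gen hs Z 1 hdiag K'
    (fun x hx => by
      obtain ⟨t, ht⟩ := (hmemK' x).1 hx
      refine (hmemK' _).2 ⟨t * n, ?_⟩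
      rw [cZh, ← ht, map_smul, hwn, smul_smul]) ((hmemK' v₀).2 ⟨1, by rw [one_smul, hv₀]⟩)
    (by rw [hv₀]; exact hw0)
  have hv₁n' : hs v₁ = n' • v₁ := Module.End.mem_eigenspace_iff.1 hv₁n
  have hn' : n' = n := by
    obtain ⟨t, ht⟩ := (hmemK' v₁).1 hv₁
    have h1 : Z (hs v₁) = n' • Z v₁ := by rw [hv₁n', map_smul]
    rw [cZh, ← ht, map_smul, hwn, smul_comm t n w, ht] at h1
    have h2 : (n - n') • Z v₁ = 0 := by rw [sub_smul, h1, sub_self]
    exact (sub_eq_zero.1 ((smul_eq_zero.1 h2).resolve_right hv₁Z)).symm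
  rw [hn'] at hv₁n'
  have cc : ∀ x, c (Z x) = Z (c x) := fun x => by
    have := congrArg (fun g : Module.End ℂ V => g x) hcZ.eq
    simpa using this
  have cchs : ∀ x, c (hs x) = hs (c x) := fun x => by
    have := congrArg (fun g : Module.End ℂ V => g x) hchs.eq
    simpa using this
  have hK2 : ∃ K₂ : Submodule ℂ V, ∀ x, x ∈ K₂ ↔ (∃ t : ℂ, t • w = Z x) ∧ hs x = n • x :=
    ⟨K' ⊓ Module.End.eigenspace hs n, fun x => by
      rw [Submodule.mem_inf, hmemK', Module.End.mem_eigenspace_iff]⟩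
  obtain ⟨K₂, hK₂⟩ := hK2
  obtain ⟨c', v, hvK, hvc, hvZ⟩ := exists_gen c Z ⊤ (Module.End.iSup_maxGenEigenspace_eq_top c) K₂
    (fun x hx => by
      obtain ⟨⟨t, ht⟩, h1⟩ := (hK₂ x).1 hx
      refine (hK₂ _).2 ⟨⟨t * ((n + 1) * (n + 1)), ?_⟩, ?_⟩
      · rw [← cc, ← ht, map_smul, hcw, smul_smul]
      · rw [← cchs, h1, map_smul]) ((hK₂ v₁).2 ⟨(hmemK' v₁).1 hv₁, hv₁n'⟩) hv₁Z
  obtain ⟨⟨t, ht⟩, hvn⟩ := (hK₂ v).1 hvK
  have hmemgen : ∀ {x : V} {a : ℂ} (g : Module.End ℂ V), g x = a • x →
      x ∈ g.genEigenspace a ⊤ := by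
    intro x a g hx
    have h1 : x ∈ g.genEigenspace a 1 := Module.End.mem_eigenspace_iff.2 hx
    exact (g.genEigenspace a).mono le_top h1
  have hdis : ∀ {x : V} {a b : ℂ}, x ∈ c.genEigenspace a ⊤ → x ∈ c.genEigenspace b ⊤ → x ≠ 0 →
      a = b := by
    intro x a b h1 h2 h3
    by_contra hab
    have h4 := (Module.End.disjoint_genEigenspace c hab ⊤ ⊤).le_bot ⟨h1, h2⟩
    exact h3 ((Submodule.mem_bot ℂ).1 h4)
  have hcn : c' = (n + 1) * (n + 1) := by
    refine hdis (x := Z v) ?_ ?_ hvZ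
    · exact Module.End.mapsTo_genEigenspace_of_comm hcZ c' ⊤ hvc
    · refine hmemgen c ?_
      rw [← ht, map_smul, hcw, smul_comm]
  -- `e v = 0`
  have hev : e v = 0 := by
    by_contra hu
    obtain ⟨k, hk1, hk2⟩ := exists_last_pow e he hu
    have hwt : ∀ (k : ℕ) {x : V} {m : ℂ}, hs x = m • x →
        hs ((e ^ k) x) = (m + 2 * (k : ℂ)) • (e ^ k) x := by
      intro k
      induction k with
      | zero => intro x m hx; simpa using hx
      | succ k ih =>
        intro x m hx
        rw [pow_succ', Module.End.mul_apply, chse, ih hx, map_smul]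
        push_cast
        module
    have hpow : (e ^ k) (e v) = (e ^ (k + 1)) v := by rw [pow_succ, Module.End.mul_apply]
    have hZx : Z ((e ^ k) (e v)) = 0 := by
      have h1 : Commute Z (e ^ (k + 1)) := (show Commute Z e from hZe).pow_right (k + 1)
      have h2 := congrArg (fun g : Module.End ℂ V => g v) h1.eq
      simp only [Module.End.mul_apply] at h2
      rw [hpow, h2, ← ht, map_smul, pow_succ, Module.End.mul_apply, hew, map_zero, smul_zero]
    have hhx : h ((e ^ k) (e v)) = (n + 2 * ((k + 1 : ℕ) : ℂ)) • (e ^ k) (e v) := by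
      rw [hh, LinearMap.add_apply, hZx, add_zero, hpow]
      exact hwt (k + 1) hvn
    have hcx : (e ^ k) (e v) ∈ c.genEigenspace c' ⊤ := by
      rw [hpow]
      exact Module.End.mapsTo_genEigenspace_of_comm (hce.pow_right (k + 1)) c' ⊤ hvc
    have h1 := hdis hcx (hmemgen c (hcas hk2 hhx)) hk1
    obtain ⟨i, -, hi⟩ := hnat hew hw0 hhw
    rw [hcn, hi] at h1
    have h2 : (i + 1) * (i + 1) = (i + 2 * (k + 1) + 1) * (i + 2 * (k + 1) + 1) := by
      exact_mod_cast h1
    have h3 : i + 1 < i + 2 * (k + 1) + 1 := by omega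
    have h4 := Nat.mul_lt_mul'' h3 h3
    omega
  -- contradiction
  obtain ⟨i, hi, hni⟩ := hnat hew hw0 hhw
  refine hvZ (no_jordan h hi (aeval_ker e f h hef hhf' hhe' hN hev) (w := Z v) ?_ ?_)
  · rw [hh, LinearMap.add_apply, hvn, hni]
  · rw [← ht, map_smul, hhw, hni, smul_comm]

end Vale.Agent.P280.H701
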